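import Vale.Agent.P192.Flux

/-!
# Uniformly bounded orbits and finite images
-/

namespace Vale.Agent.P192

variable {n k : ℕ}

theorem run_append (σ : Fin n → Equiv.Perm (Pt k)) (L L' : List (Let n)) (z : Pt k) :
    run σ z (L ++ L') = run σ (run σ z L) L' := by
  induction L generalizing z with
  | nil => rfl
  | cons s L ih => exact ih _

theorem prod_eq_run (σ : Fin n → Equiv.Perm (Pt k)) (L : List (Let n)) (z : Pt k) :
    (L.map (act σ)).prod z = run σ z L.reverse := by
  induction L with
  | nil => rfl
  | cons s L ih =>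
    simp only [List.map_cons, List.prod_cons, Equiv.Perm.mul_apply, List.reverse_cons, run_append,
      ih, run]

theorem run_back (σ : Fin n → Equiv.Perm (Pt k)) (L : List (Let n)) (z : Pt k) :
    run σ (run σ z L) (L.reverse.map flipL) = z := by
  induction L generalizing z with
  | nil => rfl
  | cons s L ih =>
    simp only [run, List.reverse_cons, List.map_append, run_append, ih, List.map_cons, List.map_nil,
      act_flip_apply]

/-- Orbits of bounded-displacement actions of a finitely presented periodic group are uniformly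
bounded, with a bound depending only on the displacement and the presentation. -/
theorem orbit_bound {G : Type*} [Group G] (hG : IsMulTorsion G)
    (φ : FreeGroup (Fin n) →* G) (hφ : Function.Surjective φ) (S : Set (FreeGroup (Fin n)))
    (hS : S.Finite) (hker : Subgroup.normalClosure S = φ.ker) (k R : ℕ) :
    ∃ M : ℕ, ∀ σ : Fin n → Equiv.Perm (Pt k), (∀ s z, |(act σ s z).1 - z.1| ≤ R) →
      (∀ w ∈ S, FreeGroup.lift σ w = 1) → ∀ L z, |(run σ z L).1 - z.1| ≤ M := by
  classical
  set B : ℕ := (hS.toFinset.sup fun w => w.toWord.length) * R + R with hB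
  set V : ℕ := 2 * B + 2 * R + 2 with hV
  let W := Fin V → Let n → Fin k → (↥(Finset.Icc (-(R : ℤ)) R) × Fin k) × ZMod 2
  set N := Fintype.card W with hN
  refine ⟨1 + N * (R + 1) + V, fun σ hR hrel => ?_⟩
  have main : ∀ L z, (run σ z L).1 - z.1 ≤ ((1 + N * (R + 1) + V : ℕ) : ℤ) := by
    intro L z
    by_contra hbig
    set y := run σ z L with hy
    set F := cnt σ z L with hF
    let pat : Fin (N + 1) → W := fun j t s a =>
      ((⟨(act σ s (z.1 + 1 + (j.val * (R + 1) : ℕ) + t.val, a)).1 -
          (z.1 + 1 + (j.val * (R + 1) : ℕ) + t.val), Finset.mem_Icc.mpr (abs_le.mp (hR s _))⟩,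
        (act σ s (z.1 + 1 + (j.val * (R + 1) : ℕ) + t.val, a)).2),
        F (z.1 + 1 + (j.val * (R + 1) : ℕ) + t.val, a) s)
    obtain ⟨j, j', hne, heq⟩ := Fintype.exists_ne_map_eq_of_card_lt pat
      (by rw [Fintype.card_fin, ← hN]; exact Nat.lt_succ_self N)
    wlog hlt : j < j' generalizing j j'
    · exact this j' j hne.symm heq.symm (lt_of_le_of_ne (not_lt.mp hlt) hne.symm)
    have hjj : (j : ℕ) < j' := hlt
    set P : ℕ := ((j' : ℕ) - j) * (R + 1) with hP
    have hjP : (j : ℕ) * (R + 1) + P = j' * (R + 1) := by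
      rw [hP, ← Nat.add_mul, Nat.add_sub_cancel' hjj.le]
    have hj'N : (j' : ℕ) * (R + 1) ≤ N * (R + 1) :=
      Nat.mul_le_mul_right _ (Nat.lt_succ_iff.mp j'.isLt)
    set p : ℤ := z.1 + 1 + ((j : ℕ) * (R + 1) : ℕ) with hp
    have h0 : flux σ R F (p + B + R) = 0 := by
      refine no_periodic_crossing hG φ hφ S hker (B := B) (P := P) (fun w hw => ?_) (by omega)
        (Nat.mul_pos (by omega) (by omega)) σ hR hrel p F (fun t ht s a => ?_) fun x h1 h2 => ?_
      · have := Finset.le_sup (f := fun w : FreeGroup (Fin n) => w.toWord.length)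
          (hS.mem_toFinset.mpr hw)
        calc w.toWord.length * R ≤ (hS.toFinset.sup fun w => w.toWord.length) * R :=
              Nat.mul_le_mul_right _ this
          _ ≤ B := by omega
      · have h := congrFun (congrFun (congrFun heq ⟨t, ht⟩) s) a
        simp only [pat, Prod.mk.injEq, Subtype.mk.injEq] at h
        obtain ⟨⟨ha, hb⟩, hc⟩ := h
        have e : p + t + P = z.1 + 1 + ((j' : ℕ) * (R + 1) : ℕ) + t := by omega
        rw [e]
        refine ⟨?_, hc.symm⟩
        ext
        · simp only [sh]; rw [hp] at *; omega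
        · exact congrArg Fin.val hb.symm
      · rw [hF, div_cnt, if_neg, if_neg]
        · rfl
        · intro e
          have : y.1 = x.1 := congrArg Prod.fst e
          omega
        · intro e
          have : z.1 = x.1 := congrArg Prod.fst e
          omega
    have hyr : (run σ z L).1 = y.1 := rfl
    rw [hF, flux_cnt σ hR, ind, ind, if_pos (by omega), if_neg (by omega)] at h0
    exact absurd h0 (by decide)
  intro L z
  rw [abs_le]
  refine ⟨?_, main L z⟩
  have := main (L.reverse.map flipL) (run σ z L)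
  rw [run_back] at this
  omega

/-- Uniformly small orbits and finite generation give a finite image. -/
theorem finite_range_of_small_orbits {G : Type*} [Group G] (φ : FreeGroup (Fin n) →* G)
    (hφ : Function.Surjective φ) {X : Type*} (ρ : G →* Equiv.Perm X) (N : ℕ)
    (h : ∀ x, ∃ s : Finset X, s.card ≤ N ∧ ∀ g, ρ g x ∈ s) :
    (Set.range fun g => ρ g).Finite := by
  classical
  have hfin : Finite (G →* Equiv.Perm (Fin N)) :=
    Finite.of_injective (fun ψ : G →* Equiv.Perm (Fin N) => fun i => ψ (φ (FreeGroup.of i)))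
      fun a b hab => by
        have : a.comp φ = b.comp φ := FreeGroup.ext_hom (f := a.comp φ) (g := b.comp φ) fun i => congrFun hab i
        exact MonoidHom.ext fun g => by
          obtain ⟨w, rfl⟩ := hφ g
          exact DFunLike.congr_fun this w
  let key : G → (G →* Equiv.Perm (Fin N)) → Equiv.Perm (Fin N) := fun g ψ => ψ g
  have hkey : ∀ g g', key g = key g' → ρ g = ρ g' := by
    intro g g' e
    refine Equiv.ext fun x => ?_
    obtain ⟨s, hs, hmem⟩ := h x
    let O : Set X := Set.range fun g => ρ g x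
    have hinv : ∀ a y, ρ a y ∈ O ↔ y ∈ O := by
      intro a y
      constructor
      · rintro ⟨b, hb⟩
        refine ⟨a⁻¹ * b, ?_⟩
        simp only at hb ⊢
        rw [map_mul, Equiv.Perm.mul_apply, hb]
        simp
      · rintro ⟨b, rfl⟩
        exact ⟨a * b, by simp⟩
    let ψ : G →* Equiv.Perm O :=
      { toFun := fun a => (ρ a).subtypePerm (hinv a)
        map_one' := Equiv.ext fun y => by simp
        map_mul' := fun a b => Equiv.ext fun y => Subtype.ext
          ((congrArg (fun r : Equiv.Perm X => r y.1) (ρ.map_mul a b)).trans rfl) }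
    have hsub : ∀ y : O, (y : X) ∈ s := fun y => by
      obtain ⟨b, hb⟩ := y.2
      exact hb ▸ hmem b
    let ι : O ↪ Fin N :=
      (⟨fun y => (⟨y.1, hsub y⟩ : s), fun a b hab => Subtype.ext (congrArg Subtype.val hab :)⟩ :
        O ↪ s).trans (s.equivFin.toEmbedding.trans (Fin.castLEEmb hs))
    have h1 := congrFun e ((Equiv.Perm.viaEmbeddingHom ι).comp ψ)
    have h2 : ψ g = ψ g' := Equiv.Perm.viaEmbeddingHom_injective ι h1
    exact congrArg Subtype.val (DFunLike.congr_fun h2 (⟨x, 1, by simp⟩ : O))
  have : Finite (Set.range fun g => ρ g) := by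
    refine Finite.of_injective (fun r : Set.range fun g => ρ g => key r.2.choose) fun a b hab => ?_
    have := hkey _ _ hab
    apply Subtype.ext
    rw [← a.2.choose_spec, ← b.2.choose_spec]
    exact this
  exact Set.toFinite _

/-- Finitely presented periodic groups have finite images in bounded-displacement permutations
of finitely many copies of the line. -/
theorem finite_image_line {G : Type*} [Group G] [hP : Group.IsFinitelyPresented G]
    (hG : IsMulTorsion G) (k : ℕ) (ρ : G →* Equiv.Perm (Pt k))
    (hb : ∀ g, ∃ R : ℕ, ∀ z, |(ρ g z).1 - z.1| ≤ R) : (Set.range fun g => ρ g).Finite := by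
  classical
  obtain ⟨n, φ, hφ, S, hS, hker⟩ := hP.out
  choose R hR using fun s : Let n => hb (φ (FreeGroup.mk [s]))
  set R0 : ℕ := Finset.univ.sup R
  set σ : Fin n → Equiv.Perm (Pt k) := fun i => ρ (φ (FreeGroup.of i))
  have hlift : FreeGroup.lift σ = ρ.comp φ := by
    ext i : 1
    simp [σ]
  have hact : ∀ s, act σ s = ρ (φ (FreeGroup.mk [s])) := fun s => by
    have h := DFunLike.congr_fun hlift (FreeGroup.mk [s])
    rw [FreeGroup.lift_mk] at h
    simpa [act] using h
  obtain ⟨M, hM⟩ := orbit_bound hG φ hφ S hS hker k R0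
  have hM' := hM σ (fun s z => by
      rw [hact]
      exact (hR s z).trans (by exact_mod_cast Finset.le_sup (Finset.mem_univ s)))
    (fun w hw => by
      rw [hlift, MonoidHom.comp_apply,
        (MonoidHom.mem_ker (f := φ)).mp (hker ▸ Subgroup.subset_normalClosure hw), map_one])
  refine finite_range_of_small_orbits φ hφ ρ ((2 * M + 1) * k) fun z => ?_
  refine ⟨Finset.Icc (z.1 - M) (z.1 + M) ×ˢ Finset.univ, ?_, fun g => ?_⟩
  · simp [Finset.card_product, Int.card_Icc, show (z.1 + M + 1 - (z.1 - M)).toNat = 2 * M + 1 by omega]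
  · obtain ⟨w, rfl⟩ := hφ g
    have h := abs_le.mp (hM' w.toWord.reverse z)
    rw [← prod_eq_run, ← lift_apply, hlift, MonoidHom.comp_apply] at h
    simp only [Finset.mem_product, Finset.mem_Icc, Finset.mem_univ, and_true]
    omega

/-- Finitely presented periodic groups have finite images in full groups of integer systems. -/
theorem finite_image_full_group {G : Type*} [Group G] [hP : Group.IsFinitelyPresented G]
    (hG : IsMulTorsion G) {X : Type*} (T : Equiv.Perm X) (ρ : G →* Equiv.Perm X)
    (hb : ∀ g, ∃ R : ℕ, ∀ x, ∃ m : ℤ, |m| ≤ R ∧ ρ g x = (T ^ m) x) :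
    (Set.range fun g => ρ g).Finite := by
  classical
  obtain ⟨n, φ, hφ, S, hS, hker⟩ := hP.out
  choose R hR using fun s : Let n => hb (φ (FreeGroup.mk [s]))
  choose m hm hm' using hR
  set R0 : ℕ := Finset.univ.sup R
  set σX : Fin n → Equiv.Perm X := fun i => ρ (φ (FreeGroup.of i))
  have hlift : FreeGroup.lift σX = ρ.comp φ := by
    ext i : 1
    simp [σX]
  have hact : ∀ s, act σX s = ρ (φ (FreeGroup.mk [s])) := fun s => by
    have h := DFunLike.congr_fun hlift (FreeGroup.mk [s])
    rw [FreeGroup.lift_mk] at h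
    simpa [act] using h
  obtain ⟨M, hM⟩ := orbit_bound hG φ hφ S hS hker 1 R0
  set D : ℕ := (hS.toFinset.sup fun w => w.toWord.length) * R0 + 2 * R0 + M with hD
  refine finite_range_of_small_orbits φ hφ ρ (2 * D + 1) fun x => ?_
  refine ⟨(Finset.Icc (-(D : ℤ)) D).image fun j => (T ^ j) x,
    Finset.card_image_le.trans (by simp [Int.card_Icc]; omega), ?_⟩
  have horb : ∀ g, ∃ j : ℤ, ρ g x = (T ^ j) x := fun g => by
    obtain ⟨Rg, hRg⟩ := hb g
    obtain ⟨j, -, hj⟩ := hRg x
    exact ⟨j, hj⟩
  intro g
  simp only [Finset.mem_image, Finset.mem_Icc]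
  by_cases hper : ∃ P : ℕ, 0 < P ∧ P ≤ D ∧ (T ^ (P : ℤ)) x = x
  · obtain ⟨P, hP0, hPD, hPx⟩ := hper
    obtain ⟨j, hj⟩ := horb g
    have h1 := Int.emod_nonneg j (show (P : ℤ) ≠ 0 by omega)
    have h2 := Int.emod_lt_of_pos j (show (0 : ℤ) < P by omega)
    refine ⟨j % P, ⟨by omega, by omega⟩, ?_⟩
    have hfix : ((T ^ (P : ℤ)) ^ (j / P)) x = x :=
      Equiv.Perm.zpow_apply_eq_self_of_apply_eq_self hPx _
    rw [hj]
    conv_rhs => rw [← Int.emod_add_mul_ediv j P, zpow_add, Equiv.Perm.mul_apply, zpow_mul, hfix]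
  · have hfree : ∀ d i : ℤ, |d| ≤ D → (T ^ d) ((T ^ i) x) = (T ^ i) x → d = 0 := by
      intro d i hd he
      have he' : (T ^ d) x = x := by
        have := congrArg (T ^ (-i)) he
        rw [← Equiv.Perm.mul_apply, ← Equiv.Perm.mul_apply, ← Equiv.Perm.mul_apply,
          ← zpow_add, ← zpow_add, ← zpow_add] at this
        simpa using this
      by_contra hne
      have hd' := abs_le.mp hd
      rcases lt_or_gt_of_ne hne with hlt | hlt
      · refine hper ⟨(-d).toNat, by omega, by omega, ?_⟩
        rw [Int.toNat_of_nonneg (by omega), zpow_neg, Equiv.Perm.inv_def, Equiv.symm_apply_eq, he']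
      · refine hper ⟨d.toNat, by omega, by omega, ?_⟩
        rw [Int.toNat_of_nonneg (by omega)]
        exact he'
    let mv : Let n → Pt 1 → Pt 1 := fun s y => (y.1 + m s ((T ^ y.1) x), y.2)
    have hmv : ∀ s y, (T ^ (mv s y).1) x = act σX s ((T ^ y.1) x) := fun s y => by
      rw [hact, hm', ← Equiv.Perm.mul_apply, ← zpow_add, add_comm]
    have hmb : ∀ s y, |(mv s y).1 - y.1| ≤ R0 := fun s y => by
      simp only [mv, add_sub_cancel_left]
      exact (hm s _).trans (by exact_mod_cast Finset.le_sup (Finset.mem_univ s))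
    have hzero : ∀ y y' : Pt 1, |y'.1 - y.1| ≤ D → (T ^ y'.1) x = (T ^ y.1) x → y' = y := by
      intro y y' h he
      have := hfree (y'.1 - y.1) y.1 h
        (by rw [← Equiv.Perm.mul_apply, ← zpow_add, sub_add_cancel, he])
      exact Prod.ext (by omega) (Subsingleton.elim _ _)
    have hinv : ∀ s y, mv (flipL s) (mv s y) = y := fun s y => by
      refine hzero _ _ ?_ (by rw [hmv, hmv, act_flip_apply])
      have h1 := abs_le.mp (hmb s y)
      have h2 := abs_le.mp (hmb (flipL s) (mv s y))
      rw [abs_le]; omega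
    let σ : Fin n → Equiv.Perm (Pt 1) := fun i =>
      { toFun := mv (i, true)
        invFun := mv (i, false)
        left_inv := hinv (i, true)
        right_inv := hinv (i, false) }
    have hσ : ∀ s y, act σ s y = mv s y := fun s y => by
      obtain ⟨i, b⟩ := s
      cases b <;> rfl
    have hσb : ∀ s y, |(act σ s y).1 - y.1| ≤ R0 := fun s y => by rw [hσ]; exact hmb s y
    have hcomm : ∀ (L : List (Let n)) y,
        (T ^ ((L.map (act σ)).prod y).1) x = (L.map (act σX)).prod ((T ^ y.1) x) := by
      intro L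
      induction L with
      | nil => simp
      | cons s L ih =>
        intro y
        simp only [List.map_cons, List.prod_cons, Equiv.Perm.mul_apply, hσ, hmv, ih]
    have hrel : ∀ w ∈ S, FreeGroup.lift σ w = 1 := fun w hw => by
      rw [lift_apply]
      refine Equiv.ext fun y => hzero y _ ?_ ?_
      · refine (word_disp σ hσb _ y).trans ?_
        have := Finset.le_sup (f := fun w : FreeGroup (Fin n) => w.toWord.length)
          (hS.mem_toFinset.mpr hw)
        have h2 : w.toWord.length * R0 ≤ D := (Nat.mul_le_mul_right R0 this).trans (by omega)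
        exact_mod_cast h2
      · rw [hcomm, ← lift_apply, hlift, MonoidHom.comp_apply,
          (MonoidHom.mem_ker (f := φ)).mp (hker ▸ Subgroup.subset_normalClosure hw), map_one]
        rfl
    obtain ⟨w, rfl⟩ := hφ g
    have h := abs_le.mp (hM σ hσb hrel w.toWord.reverse (0, 0))
    rw [← prod_eq_run] at h
    simp only [sub_zero] at h
    refine ⟨((w.toWord.map (act σ)).prod (0, 0)).1, ⟨by omega, by omega⟩, ?_⟩
    rw [hcomm, ← lift_apply, hlift]
    simp

end Vale.Agent.P192
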