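import Mathlib

/-!
# Periodic groups acting on finitely many copies of the line with bounded displacement
-/

namespace Vale.Agent.P192

/-- Points of the strip. -/
abbrev Pt (k : ℕ) := ℤ × Fin k

/-- Signed generators. -/
abbrev Let (n : ℕ) := Fin n × Bool

variable {n k : ℕ}

/-- The permutation of a signed letter. -/
def act {X : Type*} (σ : Fin n → Equiv.Perm X) (s : Let n) : Equiv.Perm X :=
  cond s.2 (σ s.1) (σ s.1)⁻¹

/-- The opposite letter. -/
def flipL (s : Let n) : Let n := (s.1, !s.2)

theorem act_flip_apply {X : Type*} (σ : Fin n → Equiv.Perm X) (s : Let n) (x : X) :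
    act σ (flipL s) (act σ s x) = x := by
  obtain ⟨i, b⟩ := s
  cases b <;> simp [act, flipL]

theorem act_apply_flip {X : Type*} (σ : Fin n → Equiv.Perm X) (s : Let n) (x : X) :
    act σ s (act σ (flipL s) x) = x := by
  obtain ⟨i, b⟩ := s
  cases b <;> simp [act, flipL]

theorem lift_apply {X : Type*} (σ : Fin n → Equiv.Perm X) (w : FreeGroup (Fin n)) :
    FreeGroup.lift σ w = (w.toWord.map (act σ)).prod := by
  conv_lhs => rw [← FreeGroup.mk_toWord (x := w)]
  rw [FreeGroup.lift_mk]
  rfl

theorem word_disp {R : ℕ} (σ : Fin n → Equiv.Perm (Pt k))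
    (hR : ∀ s z, |(act σ s z).1 - z.1| ≤ R) (L : List (Let n)) (z : Pt k) :
    |((L.map (act σ)).prod z).1 - z.1| ≤ L.length * R := by
  induction L with
  | nil => simp
  | cons s L ih =>
    simp only [List.map_cons, List.prod_cons, Equiv.Perm.mul_apply, List.length_cons]
    have := hR s ((L.map (act σ)).prod z)
    rw [abs_le] at this ih ⊢
    push_cast
    constructor <;> linarith

/-- Translation of the strip. -/
def sh (m : ℤ) (z : Pt k) : Pt k := (z.1 + m, z.2)

theorem sh_sh (a b : ℤ) (z : Pt k) : sh a (sh b z) = sh (a + b) z := by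
  simp [sh, add_comm, add_left_comm]

theorem sh_zero (z : Pt k) : sh 0 z = z := by simp [sh]

/-- Endpoint of the path reading the letters in order. -/
def run (σ : Fin n → Equiv.Perm (Pt k)) (z : Pt k) : List (Let n) → Pt k
  | [] => z
  | s :: L => run σ (act σ s z) L

/-- Edge multiplicities modulo two. -/
def cnt (σ : Fin n → Equiv.Perm (Pt k)) (z : Pt k) : List (Let n) → Pt k → Let n → ZMod 2
  | [], _, _ => 0
  | s :: L, x, t => (if z = x ∧ s = t then 1 else 0) + cnt σ (act σ s z) L x t

/-- Divergence modulo two. -/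
def div2 (σ : Fin n → Equiv.Perm (Pt k)) (F : Pt k → Let n → ZMod 2) (x : Pt k) : ZMod 2 :=
  ∑ s, F x s + ∑ s, F (act σ (flipL s) x) s

/-- Indicator of the left side of a cut. -/
def ind (c : ℤ) (x : Pt k) : ZMod 2 := if x.1 < c then 1 else 0

/-- The strip around a cut. -/
noncomputable def strip (k R : ℕ) (c : ℤ) : Finset (Pt k) := Finset.Icc (c - R) (c + R) ×ˢ Finset.univ

/-- Flux through a cut modulo two. -/
noncomputable def flux (σ : Fin n → Equiv.Perm (Pt k)) (R : ℕ) (F : Pt k → Let n → ZMod 2) (c : ℤ) : ZMod 2 :=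
  ∑ x ∈ strip k R c, ∑ s, F x s * (ind c x + ind c (act σ s x))

theorem ind_add_eq_zero {R : ℕ} {σ : Fin n → Equiv.Perm (Pt k)}
    (hR : ∀ s z, |(act σ s z).1 - z.1| ≤ R) {c : ℤ} {x : Pt k} (hx : x ∉ strip k R c) (s : Let n) :
    ind c x + ind c (act σ s x) = 0 := by
  have h := abs_le.mp (hR s x)
  simp only [strip, Finset.mem_product, Finset.mem_Icc, Finset.mem_univ, and_true, not_and_or,
    not_le] at hx
  rcases hx with hx | hx
  · rw [ind, ind, if_pos (by omega), if_pos (by omega)]; decide
  · rw [ind, ind, if_neg (by omega), if_neg (by omega)]; decide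

theorem flux_cnt {R : ℕ} (σ : Fin n → Equiv.Perm (Pt k))
    (hR : ∀ s z, |(act σ s z).1 - z.1| ≤ R) (c : ℤ) (L : List (Let n)) (z : Pt k) :
    flux σ R (cnt σ z L) c = ind c z + ind c (run σ z L) := by
  induction L generalizing z with
  | nil =>
    simp only [flux, cnt, zero_mul, Finset.sum_const_zero, run]
    exact (CharTwo.add_self_eq_zero _).symm
  | cons s L ih =>
    have h1 : ∑ x ∈ strip k R c, ∑ t, (if z = x ∧ s = t then (1 : ZMod 2) else 0) *
        (ind c x + ind c (act σ t x)) = ind c z + ind c (act σ s z) := by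
      simp only [ite_mul, one_mul, zero_mul, ite_and]
      rw [Finset.sum_eq_single z]
      · simp
      · intro x _ hx
        simp [Ne.symm hx]
      · intro hz
        simp [ind_add_eq_zero hR hz s]
    simp only [flux, cnt, add_mul, Finset.sum_add_distrib, run]
    rw [h1]
    have := ih (act σ s z)
    simp only [flux] at this
    rw [this]
    generalize ind c z = a, ind c (act σ s z) = b, ind c (run σ (act σ s z) L) = e
    revert a b e
    decide

theorem div_cnt (σ : Fin n → Equiv.Perm (Pt k)) (L : List (Let n)) (z x : Pt k) :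
    div2 σ (cnt σ z L) x =
      (if z = x then 1 else 0) + (if run σ z L = x then 1 else 0) := by
  induction L generalizing z with
  | nil =>
    simp only [div2, cnt, Finset.sum_const_zero, run, add_zero]
    exact (CharTwo.add_self_eq_zero _).symm
  | cons s L ih =>
    have h1 : ∑ t, (if z = x ∧ s = t then (1 : ZMod 2) else 0) = if z = x then 1 else 0 := by
      by_cases h : z = x <;> simp [h]
    have h2 : ∑ t, (if z = act σ (flipL t) x ∧ s = t then (1 : ZMod 2) else 0)
        = if act σ s z = x then 1 else 0 := by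
      rw [Finset.sum_eq_single s]
      · by_cases h : act σ s z = x
        · rw [if_pos h, if_pos ⟨by rw [← h, act_flip_apply], rfl⟩]
        · rw [if_neg h, if_neg]
          rintro ⟨e, -⟩
          exact h (by rw [e, act_apply_flip])
      · intro t _ ht
        simp [Ne.symm ht]
      · simp
    simp only [div2, cnt, Finset.sum_add_distrib, run]
    rw [h1, h2]
    have := ih (act σ s z)
    simp only [div2] at this
    rw [add_add_add_comm, this]
    have key : ∀ u v w : ZMod 2, u + v + (v + w) = u + w := by decide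
    exact key _ _ _

/-- A periodic group has no bounded-displacement orbit crossing a repeated window. -/
theorem no_periodic_crossing {G : Type*} [Group G] (hG : IsMulTorsion G)
    (φ : FreeGroup (Fin n) →* G) (hφ : Function.Surjective φ) (S : Set (FreeGroup (Fin n)))
    (hker : Subgroup.normalClosure S = φ.ker) {R B P : ℕ}
    (hB : ∀ w ∈ S, w.toWord.length * R ≤ B) (hBR : R ≤ B) (hP : 0 < P)
    (σ : Fin n → Equiv.Perm (Pt k)) (hR : ∀ s z, |(act σ s z).1 - z.1| ≤ R)
    (hrel : ∀ w ∈ S, FreeGroup.lift σ w = 1) (p : ℤ) (F : Pt k → Let n → ZMod 2)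
    (hper : ∀ t : ℕ, t < 2 * B + 2 * R + 2 → ∀ s a,
      act σ s (p + t + P, a) = sh P (act σ s (p + t, a)) ∧ F (p + t + P, a) s = F (p + t, a) s)
    (hdiv : ∀ x : Pt k, p ≤ x.1 → x.1 < p + P + (2 * B + 2 * R + 2) → div2 σ F x = 0) :
    flux σ R F (p + B + R) = 0 := by
  set V : ℕ := 2 * B + 2 * R + 2 with hV
  have hchain : ∀ t : ℕ, t < P + V → ∀ s a,
      act σ s (p + t, a) = sh ((P * (t / P) : ℕ) : ℤ) (act σ s (p + (t % P : ℕ), a)) ∧
        F (p + t, a) s = F (p + (t % P : ℕ), a) s := by
    intro t
    induction t using Nat.strong_induction_on with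
    | _ t ih =>
      intro ht s a
      rcases lt_or_ge t P with h | h
      · rw [Nat.mod_eq_of_lt h, Nat.div_eq_of_lt h]
        simp [sh_zero]
      · have hmod : t % P = (t - P) % P := by
          conv_lhs => rw [← Nat.sub_add_cancel h, Nat.add_mod_right]
        have hdiv' : t / P = (t - P) / P + 1 := Nat.div_eq_sub_div hP h
        have e : (p + t : ℤ) = p + (t - P : ℕ) + P := by omega
        obtain ⟨e1, e2⟩ := ih (t - P) (by omega) (by omega) s a
        obtain ⟨f1, f2⟩ := hper (t - P) (by omega) s a
        rw [hmod, e, f1, f2, e1, e2, sh_sh, hdiv']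
        refine ⟨?_, rfl⟩
        congr 1
        push_cast
        ring
  let q : ℤ → ℤ := fun i => P * ((i - p - B) / P)
  let r : ℤ → ℤ := fun i => i - q i
  have hr : ∀ i, p + B ≤ r i ∧ r i < p + B + P := by
    intro i
    have h1 := Int.emod_nonneg (i - p - B) (show (P : ℤ) ≠ 0 by omega)
    have h2 := Int.emod_lt_of_pos (i - p - B) (show (0 : ℤ) < P by omega)
    have h3 := Int.emod_add_mul_ediv (i - p - B) P
    simp only [r, q]
    omega
  have hqadd : ∀ i m, q (i + P * m) = q i + P * m := by
    intro i m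
    simp only [q]
    rw [show i + P * m - p - B = (i - p - B) + P * m by ring,
      Int.add_mul_ediv_left _ _ (by omega : (P : ℤ) ≠ 0)]
    ring
  have hradd : ∀ i m, r (i + P * m) = r i := fun i m => by simp only [r, hqadd]; ring
  let rp : Pt k → Pt k := fun x => (r x.1, x.2)
  let f : Let n → Pt k → Pt k := fun s x => sh (q x.1) (act σ s (rp x))
  let F' : Pt k → Let n → ZMod 2 := fun x s => F (rp x) s
  have hkey : ∀ s (x : Pt k), p ≤ x.1 → x.1 < p + P + V →
      f s x = act σ s x ∧ F' x s = F x s := by
    intro s x h1 h2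
    have hr' := hr x.1
    have ex : x = (p + (x.1 - p).toNat, x.2) := by ext <;> simp [h1]
    have er : rp x = (p + (r x.1 - p).toNat, x.2) := by
      ext <;> simp [rp]; omega
    set t := (x.1 - p).toNat
    set t' := (r x.1 - p).toNat
    obtain ⟨a1, a2⟩ := hchain t (by omega) s x.2
    obtain ⟨b1, b2⟩ := hchain t' (by omega) s x.2
    have hq : (t : ℤ) - t' = P * ((x.1 - p - B) / P) := by
      have : r x.1 = x.1 - P * ((x.1 - p - B) / P) := rfl
      omega
    have hmod : t % P = t' % P := by
      have h : ((t : ℤ) % P) = (t' : ℤ) % P := by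
        rw [show (t : ℤ) = t' + P * ((x.1 - p - B) / P) by omega, Int.add_mul_emod_self_left]
      exact_mod_cast h
    simp only [f, F', er]
    rw [b1, b2]
    rw [show act σ s x = act σ s (p + t, x.2) from congrArg _ ex,
      show F x s = F (p + t, x.2) s from congrArg (F · s) ex, a1, a2, hmod]
    refine ⟨?_, rfl⟩
    rw [sh_sh]
    congr 1
    have d1 : (t : ℤ) = (t % P : ℕ) + (P * (t / P) : ℕ) := by
      exact_mod_cast (Nat.mod_add_div t P).symm
    have d2 : (t' : ℤ) = (t' % P : ℕ) + (P * (t' / P) : ℕ) := by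
      exact_mod_cast (Nat.mod_add_div t' P).symm
    rw [hmod] at d1
    simp only [q]
    omega
  have hequi : ∀ s x m, f s (sh (P * m) x) = sh (P * m) (f s x) := by
    intro s x m
    simp only [f, rp, sh]
    rw [hradd, hqadd]
    ext <;> simp; ring
  have hsplit : ∀ x : Pt k, x = sh (q x.1) (rp x) := fun x => by
    ext <;> simp [sh, rp, r]
  have hinv : ∀ s x, f (flipL s) (f s x) = x := by
    intro s x
    have h1 := hr x.1
    have h2 := abs_le.mp (hR s (rp x))
    change -(R : ℤ) ≤ (act σ s (rp x)).1 - r x.1 ∧ (act σ s (rp x)).1 - r x.1 ≤ R at h2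
    rw [show f s x = sh (P * ((x.1 - p - B) / P)) (act σ s (rp x)) from rfl, hequi,
      (hkey _ _ (by omega) (by omega)).1, act_flip_apply]
    exact (hsplit x).symm
  let τ : Fin n → Equiv.Perm (Pt k) := fun i =>
    { toFun := f (i, true)
      invFun := f (i, false)
      left_inv := hinv (i, true)
      right_inv := hinv (i, false) }
  have hτ : ∀ s x, act τ s x = f s x := fun s x => by
    obtain ⟨i, b⟩ := s
    cases b <;> rfl
  have hword : ∀ M : List (Let n), ∀ x : Pt k, p + M.length * R ≤ x.1 →
      x.1 + M.length * R < p + P + V →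
      (M.map (act τ)).prod x = (M.map (act σ)).prod x := by
    intro M
    induction M with
    | nil => intro x _ _; simp
    | cons s M ih =>
      intro x h1 h2
      simp only [List.length_cons, Nat.cast_add, Nat.cast_one, add_mul, one_mul] at h1 h2
      have hd := abs_le.mp (word_disp σ hR M x)
      simp only [List.map_cons, List.prod_cons, Equiv.Perm.mul_apply]
      rw [ih x (by omega) (by omega), hτ, (hkey s _ (by omega) (by omega)).1]
  have hwequi : ∀ (M : List (Let n)) (x : Pt k) m,
      (M.map (act τ)).prod (sh (P * m) x) = sh (P * m) ((M.map (act τ)).prod x) := by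
    intro M
    induction M with
    | nil => simp
    | cons s M ih =>
      intro x m
      simp only [List.map_cons, List.prod_cons, Equiv.Perm.mul_apply]
      rw [ih, hτ, hτ, hequi]
  have hle : φ.ker ≤ (FreeGroup.lift τ).ker := by
    rw [← hker]
    refine Subgroup.normalClosure_le_normal fun w hw => ?_
    rw [SetLike.mem_coe, MonoidHom.mem_ker, lift_apply]
    refine Equiv.ext fun x => ?_
    have h1 := hr x.1
    have hL : (w.toWord.length : ℤ) * R ≤ B := by exact_mod_cast hB w hw
    conv_lhs => rw [hsplit x, show q x.1 = P * ((x.1 - p - B) / P) from rfl, hwequi]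
    rw [hword _ _ (by change p + _ ≤ r x.1; omega) (by change r x.1 + _ < _; omega),
      ← lift_apply, hrel w hw]
    exact (hsplit x).symm
  let ψ : G →* Equiv.Perm (Pt k) := φ.liftOfSurjective hφ ⟨_, hle⟩
  have hψ : ∀ w, ψ (φ w) = FreeGroup.lift τ w := fun w =>
    MonoidHom.liftOfRightInverse_comp_apply _ _ _ _ w
  have hψequi : ∀ g x m, ψ g (sh (P * m) x) = sh (P * m) (ψ g x) := by
    intro g x m
    obtain ⟨w, rfl⟩ := hφ g
    rw [hψ, lift_apply, hwequi]
  -- orbits of the periodic action are finite
  have horb : ∀ x, (Set.range fun g => ψ g x).Finite := by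
    intro x
    have hinj : Set.InjOn (fun y : Pt k => ((y.1 : ZMod P), y.2)) (Set.range fun g => ψ g x) := by
      rintro _ ⟨g, rfl⟩ _ ⟨h, rfl⟩ e
      simp only [Prod.mk.injEq] at e
      obtain ⟨e1, e2⟩ := e
      obtain ⟨m, hm⟩ := (ZMod.intCast_zmod_eq_zero_iff_dvd _ P).mp
        (show (((ψ g x).1 - (ψ h x).1 : ℤ) : ZMod P) = 0 by push_cast; rw [e1, sub_self])
      have hgh : ψ g x = sh (P * m) (ψ h x) := Prod.ext (by simp [sh]; omega) e2
      have hu : ψ (h⁻¹ * g) x = sh (P * m) x := by
        rw [map_mul, Equiv.Perm.mul_apply, hgh, hψequi, ← Equiv.Perm.mul_apply, ← map_mul,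
          inv_mul_cancel, map_one, Equiv.Perm.one_apply]
      obtain ⟨N, hN, hpow⟩ := isOfFinOrder_iff_pow_eq_one.mp (hG (h⁻¹ * g))
      have hiter : ∀ j : ℕ, ψ ((h⁻¹ * g) ^ j) x = sh (P * (j * m)) x := by
        intro j
        induction j with
        | zero => simp [sh_zero]
        | succ j ih =>
          rw [pow_succ', map_mul, Equiv.Perm.mul_apply, ih, hψequi, hu, sh_sh]
          congr 1
          push_cast
          ring
      have h0 := congrArg Prod.fst (hiter N)
      rw [hpow, map_one] at h0
      simp only [Equiv.Perm.one_apply, sh] at h0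
      have hz : (P : ℤ) * (N * m) = 0 := by omega
      have hm0 : m = 0 := by
        rcases mul_eq_zero.mp hz with hz | hz
        · omega
        · rcases mul_eq_zero.mp hz with hz | hz <;> omega
      rw [hm0, mul_zero, sh_zero] at hgh
      exact hgh
    have : NeZero P := ⟨hP.ne'⟩
    exact Set.Finite.of_finite_image (Set.toFinite _) hinj
  -- flux
  set c : ℤ := p + B + R with hc
  have hT : (⋃ x ∈ strip k R c, Set.range fun g => ψ g x).Finite :=
    (strip k R c).finite_toSet.biUnion fun x _ => horb x
  set T := hT.toFinset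
  have hTmem : ∀ y, y ∈ T ↔ ∃ x ∈ strip k R c, ∃ g, ψ g x = y := by
    intro y
    simp [T]
  have hTclosed : ∀ s y, y ∈ T → act τ s y ∈ T := by
    intro s y hy
    obtain ⟨x, hx, g, rfl⟩ := (hTmem y).mp hy
    refine (hTmem _).mpr ⟨x, hx, φ (FreeGroup.mk [s]) * g, ?_⟩
    rw [map_mul, Equiv.Perm.mul_apply, hψ, FreeGroup.lift_mk]
    simp [act]
  have hR' : ∀ s x, |(act τ s x).1 - x.1| ≤ R := by
    intro s x
    rw [hτ]
    have := hR s (rp x)
    change |(act σ s (rp x)).1 - r x.1| ≤ R at this
    simp only [f, sh]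
    simp only [r] at this
    convert this using 2
    ring
  have hflux : flux σ R F c = flux τ R F' c := by
    refine Finset.sum_congr rfl fun x hx => Finset.sum_congr rfl fun s _ => ?_
    simp only [strip, Finset.mem_product, Finset.mem_Icc, Finset.mem_univ, and_true] at hx
    obtain ⟨e1, e2⟩ := hkey s x (by omega) (by omega)
    rw [hτ, e1, e2]
  have hext : flux τ R F' c = ∑ x ∈ T, ∑ s, F' x s * (ind c x + ind c (act τ s x)) := by
    refine Finset.sum_subset (fun x hx => (hTmem x).mpr ⟨x, hx, 1, by simp⟩) fun x _ hx => ?_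
    exact Finset.sum_eq_zero fun s _ => by rw [ind_add_eq_zero hR' hx s, mul_zero]
  have hdiv' : ∀ x, div2 τ F' x = 0 := by
    intro x
    have h1 := hr x.1
    have h0 := hdiv (rp x) (by change p ≤ r x.1; omega) (by change r x.1 < _; omega)
    rw [← h0]
    simp only [div2]
    congr 1
    refine Finset.sum_congr rfl fun s _ => ?_
    have h2 := abs_le.mp (hR (flipL s) (rp x))
    change -(R : ℤ) ≤ (act σ (flipL s) (rp x)).1 - r x.1 ∧
      (act σ (flipL s) (rp x)).1 - r x.1 ≤ R at h2
    have e2 := (hkey s (act σ (flipL s) (rp x)) (by omega) (by omega)).2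
    rw [← e2, hτ]
    simp only [f, F', rp, sh, q]
    rw [hradd]
  rw [hflux, hext]
  have hre : ∑ x ∈ T, ∑ s, F' x s * ind c (act τ s x)
      = ∑ y ∈ T, (∑ s, F' (act τ (flipL s) y) s) * ind c y := by
    simp only [Finset.sum_mul]
    rw [Finset.sum_comm, Finset.sum_comm (s := T)]
    refine Finset.sum_congr rfl fun s _ => ?_
    exact Finset.sum_nbij' (fun x => act τ s x) (fun y => act τ (flipL s) y)
      (fun x hx => hTclosed _ _ hx) (fun y hy => hTclosed _ _ hy)
      (fun x _ => act_flip_apply τ s x) (fun y _ => act_apply_flip τ s y)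
      (fun x _ => by simp only [act_flip_apply])
  simp only [mul_add, Finset.sum_add_distrib]
  rw [hre]
  simp only [← Finset.sum_mul, ← Finset.sum_add_distrib, ← add_mul]
  refine Finset.sum_eq_zero fun x _ => ?_
  have := hdiv' x
  simp only [div2] at this
  rw [Finset.sum_add_distrib, this, zero_mul]

end Vale.Agent.P192
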